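import Vale.Agent.P216.D754.Alg
import Vale.Agent.P216.H754B.Fl
import Vale.Agent.P216.C337.Sys

/-!
# P216-D, [F] + [G]: the contracts of the blocks of D1

`YP G t`: pairs `(x, w)`, `w` a Moore-Lipschitz loop of `M` of time `t` at `G x`, `G : S → M`.
`sndHom k G q : H^q(FL M) → H^q(YP G)`; `TrInj G r k`: it is injective with loss `r` [(E)].
`flOut_of`: `FLOut M n B k` from the blocks.
-/

set_option linter.unusedVariables false
set_option linter.unusedSectionVars false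

open Set BoundedContinuousFunction

namespace Vale.Agent.P216.D754

open Vale.Agent.P216.AS Vale.Agent.P216.H901 Vale.Agent.P216.PS Vale.Agent.P216.MV337
open Vale.Agent.P216.B64 Vale.Agent.P216.H754B

section

variable {S M : Type} [MetricSpace S] [MetricSpace M] {G : S → M}

/-- The free loops of `M` pulled back to `S`. -/
abbrev YP (G : S → M) (t : ℝ) : Set (S × (ℝ →ᵇ M)) := C337.PY G G univ t

theorem YP_mono {s t : ℝ} (h : s ≤ t) : YP G s ⊆ YP G t := C337.PY_mono le_rfl h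

theorem mono_YP (G : S → M) : Mono (YP G) := fun _ _ _ h => YP_mono h

/-- The persistence module `H^q(YP G t)`. -/
noncomputable abbrev YM (k : Type) [Field k] (G : S → M) (q : ℕ) : PM k :=
  PMa k (YP G) (mono_YP G) q

theorem umap_snd (t : ℝ) : UMap (YP G t) (FL M t) (Prod.snd : S × (ℝ →ᵇ M) → (ℝ →ᵇ M)) where
  mapsX q hq := P_subset_FL hq.2
  eqv i := i.elim
  uc ε hε := ⟨ε, hε, fun x _ y _ h => (le_max_right _ _).trans_lt h⟩

/-- The pull back `H^q(FL M t) → H^q(YP G t)`. -/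
noncomputable def sndHom (k : Type) [Field k] (G : S → M) (q : ℕ) : PMHom (XP k M q) (YM k G q) where
  f t ht := hpull k (umap_snd t) q
  nat s t hs ht h x := by
    obtain ⟨y, hy, rfl⟩ := H.exists_mk x
    rfl

/-- **(E)** -/
def TrInj (G : S → M) (r : ℝ) (k : Type) [Field k] : Prop := ∀ q, (sndHom k G q).Inj r

/-- **(E)** in elementary form. -/
theorem trInj_of {r : ℝ} (hr : 0 ≤ r) {k : Type} [Field k]
    (h : ∀ q t, 0 < t → ∀ (hu : UMap (YP G (t + r)) (FL M (t + r)) Prod.snd)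
      (h' : FL M t ⊆ FL M (t + r)) (z : HU k (FL M (t + r)) q), hpull k hu q z = 0 →
      hres k h' q z = 0) : TrInj G r k := by
  intro q t u ht htu hu hb x hx
  have h1 : t + r ≤ u := hb
  have h2 : 0 < t + r := by linarith
  have e1 : (sndHom k G q).f (t + r) h2 ((XP k M q).ρ (t + r) u h2 h1 x) = 0 := by
    rw [← (sndHom k G q).nat (t + r) u h2 hu h1, hx, map_zero]
  have e2 := h q t ht (umap_snd (t + r)) (FL_mono (by linarith)) _ e1
  rw [← (XP k M q).ρ_comp t (t + r) u ht h2 (by linarith) h1 htu x]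
  exact e2

end

/-- The reversal on `H^q(FL M t)`. -/
noncomputable abbrev revFL (k : Type) [Field k] (M : Type) [MetricSpace M] (q : ℕ) :
    PMOp (XP k M q) :=
  (evOp.sp sb_self sb_empty fun _ => empty_subset _).opa k mono_FL q

section final

variable {N M : Type} [MetricSpace N] [MetricSpace M] {n m : ℕ} {k : Type} [Field k]
  {GN GM GH : ℕ → PM k} {B C B0 c B' B₁ C₁ B0₁ c₁ B₁' B₂ C₂ B0₂ c₂ B₂' : ℝ}
  {wN : Wang m GN (XP k N) c} {bN : Based m GN B C B0}
  {G : N → M} {wM : Wang m GM (YM k G) c₁} {bM : Based m GM B₁ C₁ B0₁}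
  {h : N → N} {wH : Wang m GH (YM k h) c₂} {bH : Based m GH B₂ C₂ B0₂}

/-- **[F] + [G]**: the stable cohomology of the free loops of `M`. `N` is the model sphere,
`G : N → M`, `h : N → N` the composition of `G` and of `M → N`. -/
theorem flOut_of (hn : 4 ≤ n) (hm : m = n - 1) (h2 : (2 : k) ≠ 0) (hB : 0 ≤ B) (hC : 0 ≤ C)
    (hB' : 0 ≤ B') (hC₁ : 0 ≤ C₁) (hB₁' : 0 ≤ B₁') (hB₂' : 0 ≤ B₂')
    -- the model sphere
    (FN : Free wN bN B') {OG : ∀ q, PMOp (GN q)} (ON : WangOp wN OG (revFL k N))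
    (hε : ∀ j t ht, (OG (m * j)).r t ht ((bN.om j).z t ht) = sg k m j • (bN.om j).z t ht)
    (hcf : n % 2 = 0 → ∀ j, 0 < j → j % 2 = 0 → FN.cf j ≠ 0)
    -- the pull back by `G`
    (FM : Free wM bM B₁') {cG : ℕ → k} (hcG : ∀ j, cG j ≠ 0)
    (hG : ∀ j, FM.cf (j + 1) * cG j = cG (j + 1) * FN.cf (j + 1))
    -- the pull back by `h`
    (FH : Free wH bH B₂') {cH : ℕ → k} (hcH : ∀ j, cH j ≠ 0)
    (hH : ∀ j, FH.cf (j + 1) * cH j = cH (j + 1) * FN.cf (j + 1))
    (ΦH : ∀ q, FamMap (YM k h q) (XP k N q))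
    (hx : ∀ j, FH.cf j = 0 → ∀ t ht, ((ΦH _).φ (FH.x j)).z t ht = cH j • (FN.x j).z t ht)
    (hy : ∀ j, ∀ t ht, ((ΦH _).φ (FH.y j)).z t ht = cH j • (FN.y j).z t ht)
    -- transfer
    {r r' : ℝ} (hr : 0 ≤ r) (hr' : 0 ≤ r') (tM : TrInj G r k) (tH : TrInj h r' k)
    -- maps on families
    (f : ∀ q, FamMap (XP k N q) (XP k M q))
    (hf : ∀ q z t ht, (revFL k M q).r t ht (((f q).φ z).z t ht) =
      ((f q).φ ((revFL k N q).fam z)).z t ht)
    (ΦG : ∀ q, FamMap (YM k G q) (XP k N q))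
    (hfac : ∀ q z t ht, ((ΦG q).φ ((sndHom k G q).fam.φ ((f q).φ z))).z t ht =
      ((ΦH q).φ ((sndHom k h q).fam.φ z)).z t ht) :
    Nonempty (FLOut M n (max B0₁ 1 + 2 * C₁ + 2 * B₁' + r) k) := by
  have hBY : 0 ≤ max B0₁ 1 + 2 * C₁ + 2 * B₁' := by
    have := le_max_right B0₁ 1
    linarith
  have hBN : 0 ≤ max B0 1 + 2 * C + 2 * B' := by
    have := le_max_right B0 1
    linarith
  obtain ⟨PN⟩ := nonempty_PMOut hn h2 hm hC hB' FN ON hε hcf
  have hcf0 := cf_kk n h2 hm (by omega) FN ON hε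
  -- the structure constants
  have iff : ∀ (cf cc : ℕ → k), cf 0 = 0 → (∀ j, cc j ≠ 0) →
      (∀ j, cf (j + 1) * cc j = cc (j + 1) * FN.cf (j + 1)) → ∀ j, cf j = 0 ↔ FN.cf j = 0 := by
    intro cf cc h0 hc h j
    cases j with
    | zero => exact ⟨fun _ => FN.cf0, fun _ => h0⟩
    | succ j =>
      constructor
      · intro h1
        have := h j
        rw [h1, zero_mul] at this
        exact (mul_eq_zero.1 this.symm).resolve_left (hc _)
      · intro h1
        have := h j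
        rw [h1, mul_zero] at this
        exact (mul_eq_zero.1 this).resolve_right (hc _)
  have iM := iff FM.cf cG FM.cf0 hcG hG
  have iH := iff FH.cf cH FH.cf0 hcH hH
  obtain ⟨YO⟩ := nonempty_YOut (by omega) hm hC₁ hB₁' FM (fun i => (iM _).2 (hcf0 i))
    fun h0 j hj hj' hz => hcf h0 j hj hj' ((iM j).1 hz)
  have nz := nz_of hm hB hB' hB₂' FN FH hcf0 (fun j hj => (iH j).2 hj) (sndHom k h) hr' tH ΦH hcH
    hx hy
  have P := pmOut_of hBN hBY hr PN YO f hf (sndHom k G) tM (by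
    intro q hq
    obtain ⟨z, t, ht, hz⟩ := nz q hq
    refine ⟨z, ?_⟩
    by_contra h0
    push Not at h0
    apply hz
    rw [← hfac]
    exact (ΦG q).zero h0 t ht)
  exact ⟨flOut P (by linarith)⟩

end final

end Vale.Agent.P216.D754
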