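import Vale.Agent.P216.H754B.Out

/-!
# P216-D, [F] + [G]: algebra of the persistence modules

`XN`: free loops of the model sphere `N`; `XM`: free loops of `M`; `Y`: free loops of `M` pulled
back to `N`. The generators of `XM` are the images of the generators of `XN`.
-/

set_option linter.unusedVariables false

namespace Vale.Agent.P216.D754

open Vale.Agent.P216.H901 Vale.Agent.P216.B64 Vale.Agent.P216.H754B

variable {k : Type} [Field k]

/-- Homogeneous maps on the compatible families. -/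
structure FamMap (A B : PM k) where
  φ : A.Fam → B.Fam
  smul : ∀ (a : k) (z w : A.Fam), (∀ t ht, w.z t ht = a • z.z t ht) →
    ∀ t ht, (φ w).z t ht = a • (φ z).z t ht

theorem FamMap.zero {A B : PM k} (F : FamMap A B) {z : A.Fam} (h : ∀ t ht, z.z t ht = 0) (t : ℝ)
    (ht : 0 < t) : (F.φ z).z t ht = 0 := by
  have := F.smul 0 z z (fun t ht => by rw [zero_smul, h]) t ht
  rwa [zero_smul] at this

theorem FamMap.congr {A B : PM k} (F : FamMap A B) {z w : A.Fam}
    (h : ∀ t ht, w.z t ht = z.z t ht) (t : ℝ) (ht : 0 < t) : (F.φ w).z t ht = (F.φ z).z t ht := by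
  have := F.smul 1 z w (fun t ht => by rw [one_smul, h]) t ht
  rwa [one_smul] at this

/-- Strict morphisms. -/
structure PMHom (A B : PM k) where
  f : ∀ t, 0 < t → A.V t →ₗ[k] B.V t
  nat : ∀ s t hs ht (h : s ≤ t) x, B.ρ s t hs h (f t ht x) = f s hs (A.ρ s t hs h x)

/-- The action on the families. -/
def PMHom.fam {A B : PM k} (F : PMHom A B) : FamMap A B where
  φ z := z.map F.f F.nat
  smul a z w h t ht := by
    change F.f t ht (w.z t ht) = a • F.f t ht (z.z t ht)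
    rw [h, map_smul]

theorem PMHom.fam_z {A B : PM k} (F : PMHom A B) (z : A.Fam) (t : ℝ) (ht : 0 < t) :
    (F.fam.φ z).z t ht = F.f t ht (z.z t ht) := rfl

/-- `F` is injective with loss `r`. -/
def PMHom.Inj {A B : PM k} (F : PMHom A B) (r : ℝ) : Prop :=
  ∀ t u (ht : 0 < t) (h : t ≤ u) (hu : 0 < u), t + r ≤ u → ∀ x, F.f u hu x = 0 →
    A.ρ t u ht h x = 0

/-- Generators in the degrees `Deg n`, with births. -/
structure YOut (n : ℕ) (Y : ℕ → PM k) (B : ℝ) where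
  g : ∀ q, (Y q).Fam
  line : ∀ q, (Y q).Line (g q) B
  g_zero : ∀ q, ¬ Deg n q → ∀ t ht, (g q).z t ht = 0
  birth0 : ∀ t ht, B ≤ t → (g (kk n 0 * (n - 1))).z t ht ≠ 0
  birth : ∀ i s t hs ht, s + B ≤ t → (g (kk n i * (n - 1))).z s hs ≠ 0 →
    (g (kk n (i + 1) * (n - 1))).z t ht ≠ 0

theorem deg_x (n i : ℕ) : Deg n (kk n i * (n - 1)) := Or.inr ⟨i, Or.inl rfl⟩

section main

variable {n : ℕ} {XN XM Y : ℕ → PM k} {ON : ∀ q, PMOp (XN q)} {OM : ∀ q, PMOp (XM q)}
  {BN BY r : ℝ}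

/-- **(G)**: the generators of `XM`. -/
noncomputable def pmOut_of (hBN : 0 ≤ BN) (hBY : 0 ≤ BY) (hr : 0 ≤ r) (PN : PMOut n XN ON BN)
    (YO : YOut n Y BY) (f : ∀ q, FamMap (XN q) (XM q))
    (hf : ∀ q z t ht, (OM q).r t ht (((f q).φ z).z t ht) = ((f q).φ ((ON q).fam z)).z t ht)
    (s : ∀ q, PMHom (XM q) (Y q)) (inj : ∀ q, (s q).Inj r)
    (nz : ∀ q, Deg n q → ∃ z : (XN q).Fam, ∃ t ht, ((s q).fam.φ ((f q).φ z)).z t ht ≠ 0) :
    PMOut n XM OM (BY + r) := by
  -- the scalars `u`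
  have hu : ∀ q, ∃ u : k, (∀ t ht, (s q).f t ht (((f q).φ (PN.g q)).z t ht) =
      u • (YO.g q).z t ht) ∧ (Deg n q → u ≠ 0) := by
    intro q
    obtain ⟨u, hu⟩ := (YO.line q).fam hBY ((s q).fam.φ ((f q).φ (PN.g q)))
    refine ⟨u, fun t ht => hu t ht, fun hq h0 => ?_⟩
    obtain ⟨z, t, ht, hz⟩ := nz q hq
    obtain ⟨a, ha⟩ := (PN.line q).fam hBN z
    apply hz
    rw [PMHom.fam_z, (f q).smul a (PN.g q) z ha t ht, map_smul]
    have := hu t ht
    rw [PMHom.fam_z, h0, zero_smul] at this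
    rw [this, smul_zero]
  choose u hu hu0 using hu
  have hzero : ∀ q, ¬ Deg n q → ∀ t ht, ((f q).φ (PN.g q)).z t ht = 0 := fun q hq =>
    (f q).zero (PN.g_zero q hq)
  -- the classes of `XM` and of `Y`
  have up : ∀ q t ht, Deg n q → ((f q).φ (PN.g q)).z t ht = 0 → (YO.g q).z t ht = 0 := by
    intro q t ht hq h
    have := hu q t ht
    rw [h, map_zero] at this
    exact (smul_eq_zero.1 this.symm).resolve_left (hu0 q hq)
  have dn : ∀ q s' t hs ht, s' + r ≤ t → (YO.g q).z t ht = 0 →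
      ((f q).φ (PN.g q)).z s' hs = 0 := by
    intro q s' t hs ht h h0
    have h1 : s' ≤ t := by linarith
    rw [← ((f q).φ (PN.g q)).comp s' t hs h1]
    refine inj q s' t hs h1 ht h _ ?_
    rw [hu, h0, smul_zero]
  exact
  { g := fun q => (f q).φ (PN.g q)
    line := by
      intro q s' t hs h hb x
      have hv : 0 < s' + r := by linarith
      have ht : 0 < t := by linarith
      have h1 : s' ≤ s' + r := by linarith
      have h2 : s' + r ≤ t := by linarith
      obtain ⟨c, hc⟩ := YO.line q (s' + r) t hv h2 (by linarith) ((s q).f t ht x)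
      rw [(s q).nat (s' + r) t hv ht h2] at hc
      by_cases hq : Deg n q
      · refine ⟨c / u q, ?_⟩
        have e1 : (s q).f (s' + r) hv ((XM q).ρ (s' + r) t hv h2 x -
            (c / u q) • ((f q).φ (PN.g q)).z (s' + r) hv) = 0 := by
          rw [map_sub, map_smul, hc, hu, smul_smul, div_mul_cancel₀ _ (hu0 q hq), sub_self]
        have e2 := inj q s' (s' + r) hs h1 hv le_rfl _ e1
        rw [map_sub, map_smul, (XM q).ρ_comp s' (s' + r) t hs hv h1 h2 h, PM.Fam.comp,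
          sub_eq_zero] at e2
        exact e2
      · refine ⟨0, ?_⟩
        rw [YO.g_zero q hq, smul_zero] at hc
        have e2 := inj q s' (s' + r) hs h1 hv le_rfl _ hc
        rw [(XM q).ρ_comp s' (s' + r) t hs hv h1 h2 h] at e2
        rw [e2, zero_smul]
    g_zero := hzero
    rev_zero := by
      intro t ht
      rw [hf]
      exact (f 0).congr (fun t ht => PN.rev_zero t ht) t ht
    rev_x := by
      intro i t ht
      rw [hf]
      exact (f _).smul _ _ _ (fun t ht => PN.rev_x i t ht) t ht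
    rev_y := by
      intro i t ht
      rw [hf]
      exact (f _).smul _ _ _ (fun t ht => PN.rev_y i t ht) t ht
    birth0 := by
      intro t ht h h0
      exact YO.birth0 t ht (by linarith) (up _ t ht (deg_x n 0) h0)
    birth := by
      intro i s' t hs ht h hne h0
      have hv : 0 < s' + r := by linarith
      refine YO.birth i (s' + r) t hv ht (by linarith) (fun h1 => hne ?_)
        (up _ t ht (deg_x n (i + 1)) h0)
      exact dn _ s' (s' + r) hs hv le_rfl h1 }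

end main

/-! ### The pull back -/

section

variable {m : ℕ} {G X : ℕ → PM k} {B C B0 c B' : ℝ} {w : Wang m G X c} {b : Based m G B C B0}

/-- The property of the generator in degree `q`. -/
structure YQ (F : Free w b B') (q : ℕ) (g : (X q).Fam) : Prop where
  line : (X q).Line g B'
  zx : ∀ j, q = m * j → F.cf j ≠ 0 → ∀ t ht, g.z t ht = 0
  zy : ∀ j, q = m * j + (m + 1) → F.cf (j + 1) ≠ 0 → ∀ t ht, g.z t ht = 0
  bx : ∀ j, q = m * j → F.cf j = 0 → ∀ s t hs ht, s + B' ≤ t → (b.om j).z s hs ≠ 0 →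
    g.z t ht ≠ 0
  bo : ∀ j, q = m * j → ∀ s t hs ht, s + B' ≤ t → g.z s hs ≠ 0 → (b.om j).z t ht ≠ 0
  z0 : (∀ j, q ≠ m * j) → (∀ j, q ≠ m * j + (m + 1)) → ∀ t ht, g.z t ht = 0

theorem exists_YQ (hm : 2 ≤ m) (F : Free w b B') (q : ℕ) : ∃ g : (X q).Fam, YQ F q g := by
  by_cases h1 : ∃ j, q = m * j
  · obtain ⟨j, rfl⟩ := h1
    have hj : ∀ i, m * j = m * i → i = j := fun i hi =>
      (Nat.eq_of_mul_eq_mul_left (by omega) hi).symm
    refine ⟨F.x j, ⟨F.line_x j, ?_, ?_, ?_, ?_, ?_⟩⟩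
    · intro i hi hcf
      rw [hj i hi] at hcf
      exact F.x_zero j hcf
    · intro i hi
      exact absurd (Dvd.intro _ hi) (not_dvd_y hm i)
    · intro i hi hcf
      rw [hj i hi] at hcf ⊢
      exact F.x_ne j hcf
    · intro i hi
      rw [hj i hi]
      exact F.om_ne j
    · intro hi
      exact absurd rfl (hi j)
  · by_cases h2 : ∃ j, q = m * j + (m + 1)
    · obtain ⟨j, rfl⟩ := h2
      have hj : ∀ i, m * j + (m + 1) = m * i + (m + 1) → i = j := fun i hi =>
        (Nat.eq_of_mul_eq_mul_left (by omega) (Nat.add_right_cancel hi)).symm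
      refine ⟨F.y j, ⟨F.line_y j, ?_, ?_, ?_, ?_, ?_⟩⟩
      · intro i hi
        exact absurd ⟨i, hi⟩ h1
      · intro i hi hcf
        rw [hj i hi] at hcf
        exact F.y_zero j hcf
      · intro i hi
        exact absurd ⟨i, hi⟩ h1
      · intro i hi
        exact absurd ⟨i, hi⟩ h1
      · intro _ hi
        exact absurd rfl (hi j)
    · have h3 : ¬ m ∣ q := fun ⟨j, hj⟩ => h1 ⟨j, hj⟩
      have h4 : ∀ j, q ≠ m * j + (m + 1) := fun j hj => h2 ⟨j, hj⟩
      refine ⟨PM.Fam.zero _, ⟨?_, ?_, ?_, ?_, ?_, ?_⟩⟩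
      · intro s t hs h hb x
        exact ⟨0, by rw [F.eph q h3 h4 s t hs h hb x, zero_smul]⟩
      · intro i hi
        exact absurd ⟨i, hi⟩ h1
      · intro i hi
        exact absurd ⟨i, hi⟩ h2
      · intro i hi
        exact absurd ⟨i, hi⟩ h1
      · intro i hi
        exact absurd ⟨i, hi⟩ h1
      · intro _ _ t ht
        rfl

theorem kk_pos (n i : ℕ) : 1 ≤ kk n i := by
  unfold kk
  split_ifs <;> omega

theorem kk_zero (n : ℕ) : kk n 0 = 1 := by
  unfold kk
  split_ifs <;> rfl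

/-- A degree `m * j` which is not in `Deg n`. -/
theorem even_of_not_deg_x {n : ℕ} (hn : 3 ≤ n) (hm : m = n - 1) {j : ℕ} (h : ¬ Deg n (m * j)) :
    n % 2 = 0 ∧ 0 < j ∧ j % 2 = 0 := by
  have hj0 : j ≠ 0 := by
    rintro rfl
    exact h (Or.inl (by rw [mul_zero]))
  rcases Nat.mod_two_eq_zero_or_one n with h0 | h0
  · refine ⟨h0, Nat.pos_of_ne_zero hj0, ?_⟩
    by_contra h3
    apply h
    refine Or.inr ⟨j / 2, Or.inl ?_⟩
    rw [hm, mul_comm]
    congr 1
    simp only [kk, h0]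
    norm_num
    omega
  · exfalso
    apply h
    refine Or.inr ⟨j - 1, Or.inl ?_⟩
    rw [hm, mul_comm]
    congr 1
    simp only [kk, h0]
    norm_num
    omega

/-- A degree `m * j + (m + 1)` which is not in `Deg n`. -/
theorem even_of_not_deg_y {n : ℕ} (hn : 3 ≤ n) (hm : m = n - 1) {j : ℕ}
    (h : ¬ Deg n (m * j + (m + 1))) : n % 2 = 0 ∧ (j + 1) % 2 = 0 := by
  have hy : ∀ i, kk n i * (n - 1) + 1 = m * (kk n i - 1) + (m + 1) := fun i => by
    obtain ⟨j, hj⟩ : ∃ j, kk n i = j + 1 := ⟨kk n i - 1, by have := kk_pos n i; omega⟩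
    rw [hj, Nat.add_sub_cancel, hm]
    ring
  rcases Nat.mod_two_eq_zero_or_one n with h0 | h0
  · refine ⟨h0, ?_⟩
    by_contra h3
    apply h
    refine Or.inr ⟨j / 2, Or.inr ?_⟩
    rw [hy]
    congr 2
    simp only [kk, h0]
    norm_num
    omega
  · exfalso
    apply h
    refine Or.inr ⟨j, Or.inr ?_⟩
    rw [hy]
    congr 2
    simp only [kk, h0]
    norm_num

/-- **`YOut` from `Free`.** -/
theorem nonempty_YOut {n : ℕ} (hn : 3 ≤ n) (hm : m = n - 1) (hC : 0 ≤ C) (hB' : 0 ≤ B')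
    (F : Free w b B') (hcf0 : ∀ i, F.cf (kk n i) = 0)
    (hcf : n % 2 = 0 → ∀ j, 0 < j → j % 2 = 0 → F.cf j ≠ 0) :
    Nonempty (YOut n X (max B0 1 + 2 * C + 2 * B')) := by
  have hm2 : 2 ≤ m := by omega
  choose g hg using exists_YQ hm2 F
  have hmax : (1 : ℝ) ≤ max B0 1 := le_max_right _ _
  have hx : ∀ i, kk n i * (n - 1) = m * kk n i := fun i => by rw [hm, mul_comm]
  refine ⟨⟨g, fun q => ((hg q).line).mono (by nlinarith), ?_, ?_, ?_⟩⟩
  · intro q hq
    by_cases h1 : ∃ j, q = m * j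
    · obtain ⟨j, hj⟩ := h1
      rw [hj] at hq
      obtain ⟨h0, h1, h2⟩ := even_of_not_deg_x hn hm hq
      exact (hg q).zx j hj (hcf h0 j h1 h2)
    · by_cases h2 : ∃ j, q = m * j + (m + 1)
      · obtain ⟨j, hj⟩ := h2
        rw [hj] at hq
        obtain ⟨h0, h2⟩ := even_of_not_deg_y hn hm hq
        exact (hg q).zy j hj (hcf h0 (j + 1) (Nat.succ_pos j) h2)
      · exact (hg q).z0 (fun j hj => h1 ⟨j, hj⟩) fun j hj => h2 ⟨j, hj⟩
  · intro t ht h
    have hpos : 0 < max B0 1 + 1 * C := by linarith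
    refine (hg _).bx (kk n 0) (hx 0) (hcf0 0) (max B0 1 + 1 * C) t hpos ht (by linarith) ?_
    rw [kk_zero]
    exact H754B.om_ne b hC 1 _ hpos (by push_cast; linarith)
  · intro i s t hs ht h hne
    have h1 : 0 < s + B' := by linarith
    have e1 := (hg _).bo (kk n i) (hx i) s (s + B') hs h1 le_rfl hne
    have h3 : 0 < s + B' + 2 * C := by linarith
    have e2 : (b.om (kk n (i + 1))).z (s + B' + 2 * C) h3 ≠ 0 := by
      have h4 : 0 < s + B' + C := by linarith
      have e3 := b.up (kk n i) (s + B') (s + B' + C) h1 h4 le_rfl e1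
      rcases Nat.mod_two_eq_zero_or_one n with h0 | h0
      · have ee : kk n (i + 1) = kk n i + 1 + 1 := by
          simp only [kk, h0]
          norm_num
          ring
        rw [ee]
        exact b.up _ (s + B' + C) _ h4 h3 (by linarith) e3
      · have ee : kk n (i + 1) = kk n i + 1 := by
          simp only [kk, h0]
          norm_num
        rw [ee]
        exact PM.Fam.ne_mono _ h4 h3 (by linarith) e3
    exact (hg _).bx (kk n (i + 1)) (hx (i + 1)) (hcf0 (i + 1)) _ t h3 ht (by linarith) e2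

/-- The structure constants which vanish, by the signs. -/
theorem cf_kk (n : ℕ) (h2 : (2 : k) ≠ 0) (hm : m = n - 1) (hn : 3 ≤ n) (F : Free w b B')
    {OG : ∀ q, PMOp (G q)} {OX : ∀ q, PMOp (X q)} (O : WangOp w OG OX)
    (hε : ∀ j t ht, (OG (m * j)).r t ht ((b.om j).z t ht) = sg k m j • (b.om j).z t ht) (i : ℕ) :
    F.cf (kk n i) = 0 := by
  by_contra h
  rcases Nat.mod_two_eq_zero_or_one n with h0 | h0
  · have e : kk n i = 2 * i + 1 := by simp [kk, h0]
    rw [e] at h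
    have := sign_eq_of_cf_ne F O hε _ h
    exact sg_ne_succ h2 ((even_two_mul i).mul_left m) this
  · have e : kk n i = i + 1 := by simp [kk, h0]
    rw [e] at h
    have := sign_eq_of_cf_ne F O hε _ h
    have hme : Even m := Nat.even_iff.2 (by omega)
    exact sg_ne_succ h2 (hme.mul_right i) this

/-- The class `y j` is not zero. -/
theorem y_ne (F : Free w b B') (hB : 0 ≤ B) (j : ℕ) (hcf : F.cf (j + 1) = 0) {s t : ℝ}
    (hs : 0 < s) (ht : 0 < t) (h : s + (B + 5 * c) ≤ t) (hne : (b.om j).z s hs ≠ 0) :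
    (F.y j).z t ht ≠ 0 := by
  have hc := w.c0
  intro h0
  apply hne
  have h1 : 0 < s + c := by linarith
  have h2 : 0 < s + c + c := by linarith
  have h3 : 0 < s + c + c + c := by linarith
  have h4 : 0 < s + c + c + c + c := by linarith
  have h5 : 0 < t + c := by linarith
  have e1 : w.α _ t ht ((w.κP b j).z t ht) = 0 := by
    rw [← w.κP_eq b j ht h5 le_rfl, ← F.y_def j t (t + c) ht h5 le_rfl, h0]
  obtain ⟨z, hz⟩ := (w.ex3 (m * (j + 1)) t ht _).1 e1
  obtain ⟨a, ha⟩ := w.Q_line b hB (j + 1) (s + c + c + c) t h3 (by linarith) (by linarith) z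
  have e2 : (w.dκ' b j).z (s + c) h1 = 0 := by
    have h6 := (w.iP (m * j)).gf (s + c) (s + c + c) (s + c + c + c) h1 h2 le_rfl le_rfl
      (by linarith) ((w.dκ' b j).z _ h3)
    rw [(w.dκ' b j).comp] at h6
    rw [← h6]
    have h7 := F.th j (s + c + c) (s + c + c + c) (s + c + c + c + c) h2 h3 h4 le_rfl le_rfl
    rw [w.κ_eq b (j + 1) h3 h4 le_rfl, hcf, zero_smul] at h7
    have h8 : (w.iP (m * j)).f (s + c + c) (s + c + c + c) h2 le_rfl ((w.dκ' b j).z _ h3) = 0 := h7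
    rw [h8, map_zero]
  have e3 : (w.κP b j).z (s + c + c + c) h3 = a • (w.dκ' b j).z (s + c + c + c) h3 := by
    rw [← (w.κP b j).comp _ t h3 (by linarith)]
    have h6 := w.δ_nat (m * (j + 1)) _ t h3 ht (by linarith) z
    rw [ha, map_smul] at h6
    rw [← hz]
    exact h6
  have e4 : (w.κP b j).z (s + c) h1 = 0 := by
    rw [← (w.κP b j).comp (s + c) (s + c + c + c) h1 (by linarith), e3, map_smul,
      (w.dκ' b j).comp, e2, smul_zero]
  have e5 := (w.iP (m * j)).f_f_fam w.c0 (b.om j) hs h1 le_rfl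
  have e6 : (w.iP (m * j)).f s (s + c) hs le_rfl ((w.κP b j).z (s + c) h1) = (b.om j).z s hs := e5
  rw [← e6, e4, map_zero]

theorem exists_y_ne (F : Free w b B') (hB : 0 ≤ B) (j : ℕ) (hcf : F.cf (j + 1) = 0) :
    ∃ t ht, (F.y j).z t ht ≠ 0 := by
  have hc := w.c0
  obtain ⟨T, hT⟩ := exists_om_ne b j
  have hs : 0 < max T 1 := lt_max_of_lt_right one_pos
  exact ⟨max T 1 + (B + 5 * c), by positivity, y_ne F hB j hcf hs (by positivity) le_rfl
    (hT _ hs (le_max_left _ _))⟩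

theorem exists_x_ne (F : Free w b B') (hB' : 0 ≤ B') (j : ℕ) (hcf : F.cf j = 0) :
    ∃ t ht, (F.x j).z t ht ≠ 0 := by
  obtain ⟨T, hT⟩ := exists_om_ne b j
  have hs : 0 < max T 1 := lt_max_of_lt_right one_pos
  exact ⟨max T 1 + B', by positivity, F.x_ne j hcf _ _ hs (by positivity) le_rfl
    (hT _ hs (le_max_left _ _))⟩

end

/-! ### Non-vanishing of the selfmap `h` of the model sphere -/

section nz

variable {m : ℕ} {G X G' X' : ℕ → PM k} {B C B0 c B' B₁ C₁ B0' c₁ B₁' : ℝ} {w : Wang m G X c}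
  {b : Based m G B C B0} {w' : Wang m G' X' c₁} {b' : Based m G' B₁ C₁ B0'}

/-- **(F1), (F2)**: `h^* = Φ ∘ s` is not zero in the degrees `Deg n`. `F`: the free loops of `N`;
`F'`: their pull back by `h`. -/
theorem nz_of {n : ℕ} (hm : m = n - 1) (hB : 0 ≤ B) (hB' : 0 ≤ B') (hB₁' : 0 ≤ B₁')
    (F : Free w b B') (F' : Free w' b' B₁') (hcf0 : ∀ i, F.cf (kk n i) = 0)
    (hcf' : ∀ j, F.cf j = 0 → F'.cf j = 0)
    (s : ∀ q, PMHom (X q) (X' q)) {r : ℝ} (hr : 0 ≤ r) (inj : ∀ q, (s q).Inj r)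
    (Φ : ∀ q, FamMap (X' q) (X q)) {cc : ℕ → k} (hc : ∀ j, cc j ≠ 0)
    (hx : ∀ j, F'.cf j = 0 → ∀ t ht, ((Φ _).φ (F'.x j)).z t ht = cc j • (F.x j).z t ht)
    (hy : ∀ j, ∀ t ht, ((Φ _).φ (F'.y j)).z t ht = cc j • (F.y j).z t ht)
    (q : ℕ) (hq : Deg n q) : ∃ z : (X q).Fam, ∃ t ht, ((Φ q).φ ((s q).fam.φ z)).z t ht ≠ 0 := by
  -- the general argument
  have key : ∀ (q : ℕ) (z : (X q).Fam) (z' : (X' q).Fam) (a : k) (B₂ : ℝ), 0 ≤ B₂ → a ≠ 0 →
      (X' q).Line z' B₂ → (∃ t ht, z.z t ht ≠ 0) →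
      (∀ t ht, ((Φ q).φ z').z t ht = a • z.z t ht) →
      ∃ t ht, ((Φ q).φ ((s q).fam.φ z)).z t ht ≠ 0 := by
    intro q z z' a B₂ hB₂ ha hl ⟨t, ht, hne⟩ hΦ
    obtain ⟨u, hu⟩ := hl.fam hB₂ ((s q).fam.φ z)
    refine ⟨t, ht, ?_⟩
    rw [(Φ q).smul u z' _ hu t ht, hΦ]
    refine smul_ne_zero ?_ (smul_ne_zero ha hne)
    rintro rfl
    apply hne
    have ht' : 0 < t + r := by linarith
    have h1 : t ≤ t + r := by linarith
    rw [← z.comp t (t + r) ht h1]
    refine inj q t (t + r) ht h1 ht' le_rfl _ ?_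
    have := hu (t + r) ht'
    rwa [zero_smul] at this
  have hX : ∀ j, F.cf j = 0 → ∃ z : (X (m * j)).Fam, ∃ t ht,
      ((Φ (m * j)).φ ((s (m * j)).fam.φ z)).z t ht ≠ 0 := fun j hj =>
    ⟨F.x j, key (m * j) (F.x j) (F'.x j) (cc j) B₁' hB₁' (hc j) (F'.line_x j)
      (exists_x_ne F hB' j hj) (hx j (hcf' j hj))⟩
  have hY : ∀ j, F.cf (j + 1) = 0 → ∃ z : (X (m * j + (m + 1))).Fam, ∃ t ht,
      ((Φ (m * j + (m + 1))).φ ((s (m * j + (m + 1))).fam.φ z)).z t ht ≠ 0 := fun j hj =>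
    ⟨F.y j, key (m * j + (m + 1)) (F.y j) (F'.y j) (cc j) B₁' hB₁' (hc j) (F'.line_y j)
      (exists_y_ne F hB j hj) (hy j)⟩
  rcases hq with rfl | ⟨i, rfl | rfl⟩
  · exact hX 0 F.cf0
  · have e : kk n i * (n - 1) = m * kk n i := by rw [hm, mul_comm]
    rw [e]
    exact hX _ (hcf0 i)
  · obtain ⟨j, hj⟩ : ∃ j, kk n i = j + 1 := ⟨kk n i - 1, by have := kk_pos n i; omega⟩
    have e : kk n i * (n - 1) + 1 = m * j + (m + 1) := by
      rw [hm, hj]
      ring
    rw [e]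
    exact hY j (by rw [← hj]; exact hcf0 i)

end nz

end Vale.Agent.P216.D754
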