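import Vale.Agent.P216.D754.Main
import Vale.Agent.P216.D311.LipG

open Bundle Manifold Vale.Agent.P216
open scoped ContDiff

namespace Vale.Agent.P216.D754

open Vale.Agent.P216.H779D (Sq powS)
open Vale.Agent.P216.Q633 (main_D1)

/-- **D1**: every Riemannian metric on a closed simply connected manifold of dimension at least 4
with maps to and from the sphere whose composition has non-zero degree. -/
theorem d1_final {E : Type} [NormedAddCommGroup E] [NormedSpace ℝ E] [FiniteDimensional ℝ E]
    {M : Type} [MetricSpace M] [CompactSpace M] [ChartedSpace E M] [IsManifold 𝓘(ℝ, E) ∞ M]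
    [RiemannianBundle (fun x : M => TangentSpace 𝓘(ℝ, E) x)]
    [IsContMDiffRiemannianBundle 𝓘(ℝ, E) ∞ E (fun x : M => TangentSpace 𝓘(ℝ, E) x)]
    [IsRiemannianManifold 𝓘(ℝ, E) M] [SimplyConnectedSpace M]
    {m : ℕ} (hm : 3 ≤ m) (hdim : Module.finrank ℝ E = m + 1)
    (f : C(M, Sq m)) (g : C(Sq m, M)) {D : ℤ} (hD : D ≠ 0)
    (h : (f.comp g).Homotopic (powS m D)) :
    (primeClosedGeodesicImages M).Infinite := by
  have hc : ConnectedSpace M := inferInstance
  obtain ⟨loc, -, -, -⟩ := D311.riem_data E M (by omega)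
  rw [hdim] at loc
  obtain ⟨f', g', K, K', hK, hK', hf, hg, h'⟩ := D311.exists_data_lip E f g h
  refine main_D1 (E := E) (by omega) (fun p => |D| < (p : ℤ)) (fun N => ?_)
    (d1Goal hm loc hK' hK hg hf hD h')
  obtain ⟨p, hp, hpp⟩ := Nat.exists_infinite_primes (max (N + 1) (D.natAbs + 1))
  refine ⟨p, by omega, hpp, ?_⟩
  have : D.natAbs < p := by omega
  rw [Int.abs_eq_natAbs]
  exact_mod_cast this

end Vale.Agent.P216.D754
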