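import Vale.Agent.P216.D754.Goals

/-!
# P216-D, [F] + [G]: `FLOut M n B k`, with the classes which come from the model
-/

set_option linter.unusedVariables false
set_option linter.unusedSectionVars false

open Set BoundedContinuousFunction

namespace Vale.Agent.P216.D754

open Vale.Agent.P216.AS Vale.Agent.P216.H901 Vale.Agent.P216.PS Vale.Agent.P216.MV337
open Vale.Agent.P216.B64 Vale.Agent.P216.H754B

section final

variable {N M : Type} [MetricSpace N] [MetricSpace M] {n m : ℕ} {k : Type} [Field k]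
  {GN GM GH : ℕ → PM k} {B C B0 c B' B₁ C₁ B0₁ c₁ B₁' B₂ C₂ B0₂ c₂ B₂' : ℝ}
  {wN : Wang m GN (XP k N) c} {bN : Based m GN B C B0}
  {G : N → M} {wM : Wang m GM (YM k G) c₁} {bM : Based m GM B₁ C₁ B0₁}
  {h : N → N} {wH : Wang m GH (YM k h) c₂} {bH : Based m GH B₂ C₂ B0₂}

/-- **[F] + [G]** with the classes which come from the model. `N` is the model sphere,
`G : N → M`, `h : N → N` the composition of `G` and of `M → N`. -/
theorem flOut_of' (hn : 4 ≤ n) (hm : m = n - 1) (h2 : (2 : k) ≠ 0) (hB : 0 ≤ B) (hC : 0 ≤ C)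
    (hB' : 0 ≤ B') (hC₁ : 0 ≤ C₁) (hB₁' : 0 ≤ B₁') (hB₂' : 0 ≤ B₂')
    -- the model sphere
    (FN : Free wN bN B') {OG : ∀ q, PMOp (GN q)} (ON : WangOp wN OG (revFL k N))
    (hε : ∀ j t ht, (OG (m * j)).r t ht ((bN.om j).z t ht) = sg k m j • (bN.om j).z t ht)
    (hcf : n % 2 = 0 → ∀ j, 0 < j → j % 2 = 0 → FN.cf j ≠ 0)
    -- the pull back by `G`
    (FM : Free wM bM B₁') {cG : ℕ → k} (hcG : ∀ j, cG j ≠ 0)
    (hG : ∀ j, FM.cf (j + 1) * cG j = cG (j + 1) * FN.cf (j + 1))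
    -- the pull back by `h`
    (FH : Free wH bH B₂') {cH : ℕ → k} (hcH : ∀ j, cH j ≠ 0)
    (hH : ∀ j, FH.cf (j + 1) * cH j = cH (j + 1) * FN.cf (j + 1))
    (ΦH : ∀ q, FamMap (YM k h q) (XP k N q))
    (hx : ∀ j, FH.cf j = 0 → ∀ t ht, ((ΦH _).φ (FH.x j)).z t ht = cH j • (FN.x j).z t ht)
    (hy : ∀ j, ∀ t ht, ((ΦH _).φ (FH.y j)).z t ht = cH j • (FN.y j).z t ht)
    -- transfer
    {r r' : ℝ} (hr : 0 ≤ r) (hr' : 0 ≤ r') (tM : TrInj G r k) (tH : TrInj h r' k)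
    -- maps on families
    (f : ∀ q, FamMap (XP k N q) (XP k M q))
    (hf : ∀ q z t ht, (revFL k M q).r t ht (((f q).φ z).z t ht) =
      ((f q).φ ((revFL k N q).fam z)).z t ht)
    (ΦG : ∀ q, FamMap (YM k G q) (XP k N q))
    (hfac : ∀ q z t ht, ((ΦG q).φ ((sndHom k G q).fam.φ ((f q).φ z))).z t ht =
      ((ΦH q).φ ((sndHom k h q).fam.φ z)).z t ht) :
    Nonempty (FLOut M n (max B0₁ 1 + 2 * C₁ + 2 * B₁' + r) k) ∧
      ∀ q, Deg n q → ∃ z : (XP k N q).Fam, ∃ t ht, ((f q).φ z).z t ht ≠ 0 := by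
  have hBY : 0 ≤ max B0₁ 1 + 2 * C₁ + 2 * B₁' := by
    have := le_max_right B0₁ 1
    linarith
  have hBN : 0 ≤ max B0 1 + 2 * C + 2 * B' := by
    have := le_max_right B0 1
    linarith
  obtain ⟨PN⟩ := nonempty_PMOut hn h2 hm hC hB' FN ON hε hcf
  have hcf0 := cf_kk n h2 hm (by omega) FN ON hε
  -- the structure constants
  have iff : ∀ (cf cc : ℕ → k), cf 0 = 0 → (∀ j, cc j ≠ 0) →
      (∀ j, cf (j + 1) * cc j = cc (j + 1) * FN.cf (j + 1)) → ∀ j, cf j = 0 ↔ FN.cf j = 0 := by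
    intro cf cc h0 hc h j
    cases j with
    | zero => exact ⟨fun _ => FN.cf0, fun _ => h0⟩
    | succ j =>
      constructor
      · intro h1
        have := h j
        rw [h1, zero_mul] at this
        exact (mul_eq_zero.1 this.symm).resolve_left (hc _)
      · intro h1
        have := h j
        rw [h1, mul_zero] at this
        exact (mul_eq_zero.1 this).resolve_right (hc _)
  have iM := iff FM.cf cG FM.cf0 hcG hG
  have iH := iff FH.cf cH FH.cf0 hcH hH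
  obtain ⟨YO⟩ := nonempty_YOut (by omega) hm hC₁ hB₁' FM (fun i => (iM _).2 (hcf0 i))
    fun h0 j hj hj' hz => hcf h0 j hj hj' ((iM j).1 hz)
  have nz := nz_of hm hB hB' hB₂' FN FH hcf0 (fun j hj => (iH j).2 hj) (sndHom k h) hr' tH ΦH hcH
    hx hy
  have nz1 : ∀ q, Deg n q → ∃ z : (XP k N q).Fam,
      ¬ ∀ t ht, ((sndHom k G q).fam.φ ((f q).φ z)).z t ht = 0 := by
    intro q hq
    obtain ⟨z, t, ht, hz⟩ := nz q hq
    refine ⟨z, fun h0 => ?_⟩
    apply hz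
    rw [← hfac]
    exact (ΦG q).zero h0 t ht
  have P := pmOut_of hBN hBY hr PN YO f hf (sndHom k G) tM (by
    intro q hq
    obtain ⟨z, hz⟩ := nz1 q hq
    refine ⟨z, ?_⟩
    push Not at hz
    exact hz)
  refine ⟨⟨flOut P (by linarith)⟩, fun q hq => ?_⟩
  obtain ⟨z, hz⟩ := nz1 q hq
  refine ⟨z, ?_⟩
  by_contra h0
  push Not at h0
  exact hz ((sndHom k G q).fam.zero h0)

end final

end Vale.Agent.P216.D754
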