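import Vale.Agent.P216.D754.Goals2
import Vale.Agent.P216.H901D.Asm
import Vale.Agent.P216.D337.TrInj
import Vale.Agent.P216.H894.DegB
import Vale.Agent.P216.H779D.DegG
import Vale.Agent.P216.D311.Bridge
import Vale.Agent.P216.H754B.XG1
import Vale.Agent.P216.H754B.Sign

/-!
# P216-D, D1: `FLOut M (m + 1) B k`, with the classes from the model, all inputs discharged
-/

set_option linter.unusedVariables false
set_option linter.unusedSectionVars false

open Set BoundedContinuousFunction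

namespace Vale.Agent.P216.D754

open Vale.Agent.P216.AS Vale.Agent.P216.PS Vale.Agent.P216.MV337 Vale.Agent.P216.D337
open Vale.Agent.P216.B64 (OmegaOut HU hres hpull UMap Deg)
open Vale.Agent.P216.C337 (PY PY_mono TrY)
open Vale.Agent.P216.H901 (PM PMa Hp ovr Cu cub bdc tr on Triv Wang Based Free Mono mono_empty
  free_of_triv)
open Vale.Agent.P216.H754B (cuM_enc WangOp PMOp XP GP opP sg OmegaGoal0 SignGoal OQ exists_OQ omF
  basedOf exists_om_ne)
open Vale.Agent.P216.H901D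
open Vale.Agent.P216.H779D (Sq powS cS cS_nrm cS_coc epsS epsS_pos exL_cS not_exL_cS deg_rnd
  conj_powR omc_cocL not_exL_omc)
open Vale.Agent.P216.Q633 (Rnd rndHomeo uniqSeg_rnd)
open Vale.Agent.P216.D311 (powR exists_tau omega_of_deg)

section main

variable {M N : Type} [MetricSpace M] [CompactSpace M] [MetricSpace N] [CompactSpace N] {m : ℕ}
  {K K' : ℝ} {G : N → M} {f : M → N}

/-- **D1**: `FLOut M (m + 1) B k` from the blocks. The constant `B` does not depend on the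
field. -/
theorem flOut_D1' (hS : SignGoal) (hO : OmegaGoal0) (hm3 : 3 ≤ m) {ρ : ℝ} (hρ : 0 < ρ)
    (hU : LS.UniqSeg N ρ)
    (e : N ≃ₜ Metric.sphere (0 : EuclideanSpace ℝ (Fin (m + 1 + 1))) 1)
    (hG : LipC G K) (hK : 0 < K) (hf : LipC f K') (hK' : 0 < K') (y₀ : N) {BM r r' : ℝ}
    (hBM : 0 ≤ BM) (hr : 0 ≤ r) (hr' : 0 ≤ r') :
    ∃ B : ℝ, 0 < B ∧ ∀ (k : Type) [Field k], (2 : k) ≠ 0 →
      Nonempty (OmegaOut M m (G y₀) BM k) → BNE k m (f ∘ G) (K' * K) y₀ →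
      TrInj G r k → TrInj (f ∘ G) r' k → Nonempty (FLOut M (m + 1) B k) ∧
        ∀ q, Deg (m + 1) q → ∃ z : (XP k N q).Fam, ∃ t ht,
          ((famMap (flPM k hf hK' q)).φ z).z t ht ≠ 0 := by
  have hKK : 0 < K' * K := mul_pos hK' hK
  have hh := lipC_comp hG hf hK'
  obtain ⟨BN, hBN, hON⟩ := hO (m + 1) (by omega) N ρ hρ hU ⟨e⟩ y₀
  obtain ⟨Bh, hBh, hOh⟩ := hO (m + 1) (by omega) N ρ hρ hU ⟨e⟩ (f (G y₀))
  obtain ⟨C⟩ := H388.stCaps (m + 1) N y₀ (by omega) ⟨e⟩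
  obtain ⟨ℓ, Tp, Tm, hp, hm⟩ := exists_tracks₂ C hρ hU
  obtain ⟨B1, hF1⟩ := free_of_triv (by omega : 2 ≤ m) (trivOf C hp hm) BN BN 0 hBN.le hBN.le
  obtain ⟨B2, hF2⟩ := free_of_triv (by omega : 2 ≤ m) (trivG C hG hK hp hm) BM BM 0 hBM hBM
  obtain ⟨B3, hF3⟩ := free_of_triv (by omega : 2 ≤ m) (trivG C hh hKK hp hm) Bh Bh 0 hBh.le
    hBh.le
  have hB : 0 < max (0 : ℝ) 1 + 2 * BM + 2 * max B2 0 + r := by
    have h1 := le_max_right (0 : ℝ) 1
    have h2 := le_max_right B2 0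
    linarith
  refine ⟨_, hB, fun k _ h2 hOM hb t1 t2 => ?_⟩
  obtain ⟨ON⟩ := hON k h2
  obtain ⟨Oh⟩ := hOh k h2
  obtain ⟨OM⟩ := hOM
  obtain ⟨F1⟩ := hF1 k h2 (basedOf hBN.le ON)
  obtain ⟨F2⟩ := hF2 k h2 (basedOf hBM OM)
  obtain ⟨F3⟩ := hF3 k h2 (basedOf hBh.le Oh)
  obtain ⟨h3, h4⟩ := hS m (by omega) N ρ hρ hU ⟨e⟩ y₀ C ℓ Tp Tm hp hm k h2 BN BN 0 (max B1 0)
    hBN.le hBN.le (basedOf hBN.le ON) (H754B.Free.mono F1 (le_max_left _ _))
  choose cG hcG0 hcG using exists_cG hBM hBN.le hG hK hf hK' hb hBh.le Oh OM ON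
  choose cH hcH0 hcH using exists_cH hBN.le hh hKK hb hBh.le Oh ON
  exact D754.flOut_of' (n := m + 1) (by omega) rfl h2 hBN.le hBN.le (le_max_right B1 0) hBM
    (le_max_right B2 0) (le_max_right B3 0)
    (H754B.Free.mono F1 (le_max_left _ _)) ((H754B.trivOp C hp hm).wangOp h2) h3
    (fun h => h4 (by omega))
    (H754B.Free.mono F2 (le_max_left _ _)) hcG0
    (fun j => cf_hom ((trivHomG C hG hK hp hm).wangHom h2) hcG _ _ j)
    (H754B.Free.mono F3 (le_max_left _ _)) hcH0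
    (fun j => cf_hom ((trivHomG C hh hKK hp hm).wangHom h2) hcH _ _ j)
    (fun q => famMap ((trivHomG C hh hKK hp hm).OX k q))
    (fun j hj t ht => hom_x ((trivHomG C hh hKK hp hm).wangHom h2) hcH (le_max_right B1 0) _ _ j
      hj t ht (mul_pos hKK ht))
    (fun j t ht => hom_y ((trivHomG C hh hKK hp hm).wangHom h2) hcH _ _ j t ht
      (mul_pos hKK ht))
    hr hr' t1 t2 (fun q => famMap (flPM k hf hK' q)) (fun q z t ht => flPM_rev hf hK' q z t ht)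
    (fun q => famMap ((trivHomG C hG hK hp hm).OX k q))
    (fun q z t ht => hfac hG hK hf hK' C hp hm q z t ht)

end main

section fin

open Vale.Agent.P216.D246 (LocEuc)
open Vale.Agent.P216.N929 Vale.Agent.P216.Sl

variable {M : Type} [MetricSpace M] [CompactSpace M] {m : ℕ}

/-- the map to the round sphere with the chordal metric -/
noncomputable def toSq (f : C(M, Rnd (m + 1))) : C(M, Sq m) :=
  ((rndHomeo (m + 1) : Rnd (m + 1) ≃ₜ Sq m) : C(Rnd (m + 1), Sq m)).comp f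

/-- the map from the round sphere with the chordal metric -/
noncomputable def ofSq (G : C(Rnd (m + 1), M)) : C(Sq m, M) :=
  G.comp ((rndHomeo (m + 1)).symm : C(Sq m, Rnd (m + 1)))

theorem homotopic_sq {f : C(M, Rnd (m + 1))} {G : C(Rnd (m + 1), M)} {D : ℤ}
    (h : (f.comp G).Homotopic (powR m D)) : ((toSq f).comp (ofSq G)).Homotopic (powS m D) :=
  ContinuousMap.Homotopic.comp
    (ContinuousMap.Homotopic.refl ((rndHomeo (m + 1) : Rnd (m + 1) ≃ₜ Sq m) : C(Rnd (m + 1), Sq m)))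
    (ContinuousMap.Homotopic.comp h
      (ContinuousMap.Homotopic.refl ((rndHomeo (m + 1)).symm : C(Sq m, Rnd (m + 1)))))

variable {f : C(M, Rnd (m + 1))} {G : C(Rnd (m + 1), M)} {D : ℤ} {k : Type} [Field k]

theorem fg_deg (hm : 1 ≤ m) (h : (f.comp G).Homotopic (powR m D)) :
    ExL (univ : Set (Sq m)) (m + 1) fun l =>
      cS k m (l.map fun x => toSq f (ofSq G x)) - (D : k) * cS k m l :=
  exL_cS hm (homotopic_sq h)

theorem trInj_G [ConnectedSpace M] (hm : 1 ≤ m) (loc : LocEuc M (m + 1)) {ρ : ℝ} (hρ : 0 < ρ)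
    (hU : LS.UniqSeg M ρ) (h : (f.comp G).Homotopic (powR m D)) (h2 : (2 : k) ≠ 0)
    (hD : (D : k) ≠ 0) : TrInj G (ρ / 2 + ρ / 2) k := by
  obtain ⟨τ, hτ⟩ := exists_tau (ρ₁ := ρ / 4) (by omega) loc h2 (omc_cocL k (toSq f))
    (not_exL_omc hm (homotopic_sq h) k hD) (by positivity)
  exact trInj_deg (f := toSq f) (g := ofSq G) (rndHomeo (m + 1)) (ofSq G).continuous hD
    (not_exL_cS hm) (fg_deg hm h) hU (by positivity) (by linarith) (by linarith) τ hτ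

theorem trInj_h (hm : 1 ≤ m) (h : (f.comp G).Homotopic (powR m D)) (hD : (D : k) ≠ 0) :
    TrInj (f ∘ G) (Real.pi / 2 + Real.pi / 2) k := by
  have hconN : SimplyConnectedSpace (Rnd (m + 1)) := D311.simplyConnected_rnd (m + 1) (by omega)
  have hconN' : ConnectedSpace (Rnd (m + 1)) := inferInstance
  have hπ := Real.pi_pos
  exact trInj_self (f := toSq f) (g := ofSq G) hm (rndHomeo (m + 1)) (toSq f).continuous
    (ofSq G).continuous hD ⟨_, epsS_pos m, cS_coc⟩ (not_exL_cS hm) (fg_deg hm h) uniqSeg_rnd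
    (by positivity) (by linarith)

theorem bne_h (hm : 1 ≤ m) {K : ℝ} (hK : 0 < K) (hh : LipC (f ∘ G) K)
    (y₀ : Rnd (m + 1)) (h : (f.comp G).Homotopic (powR m D)) : ∀ (k : Type) [Field k],
      (D : k) ≠ 0 → BNE k m (f ∘ G) K y₀ := by
  obtain ⟨s, hs, hbne⟩ := H894.omegaDeg_ne (n := m + 1) (by omega) Real.pi_pos uniqSeg_rnd
    (rndHomeo (m + 1)) hK hh y₀
  intro k _ hD B' hB' O j
  refine ⟨j * s, fun t ht Φ hΦ hΦ' => ?_⟩
  exact hbne k (D : k) hD (fun w hw hwc => deg_rnd hm h hwc) B' hB' O j t ht Φ hΦ hΦ'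

/-- **D1, the free loops**: a closed simply connected `(m + 1)`-manifold with Lipschitz maps
`f : M → S`, `G : S → M`, `f ∘ G` of degree `D`. -/
theorem flOut_fin [SimplyConnectedSpace M] (hm3 : 3 ≤ m) (loc : LocEuc M (m + 1)) {ρ : ℝ}
    (hρ : 0 < ρ) (hU : LS.UniqSeg M ρ) {K K' : ℝ}
    (hK : 0 < K) (hK' : 0 < K') (hG : LipC G K) (hf : LipC f K')
    (h : (f.comp G).Homotopic (powR m D)) :
    ∃ B : ℝ, 0 < B ∧ ∀ (k : Type) [Field k], (2 : k) ≠ 0 → (D : k) ≠ 0 →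
      Nonempty (FLOut M (m + 1) B k) ∧ ∀ q, Deg (m + 1) q →
        ∃ z : (XP k (Rnd (m + 1)) q).Fam, ∃ t ht, ((famMap (flPM k hf hK' q)).φ z).z t ht ≠ 0 := by
  have hm1 : 1 ≤ m := by omega
  have hcon : ConnectedSpace M := inferInstance
  have hconN : SimplyConnectedSpace (Rnd (m + 1)) := D311.simplyConnected_rnd (m + 1) (by omega)
  obtain ⟨y₀⟩ : Nonempty (Rnd (m + 1)) := inferInstance
  have hKK : 0 < K' * K := mul_pos hK' hK
  have hh : LipC (f ∘ G) (K' * K) := lipC_comp hG hf hK'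
  obtain ⟨BM, hBM, hOM⟩ := omega_of_deg M hm1 loc hρ hU (G y₀) (homotopic_sq h)
  have hπ := Real.pi_pos
  obtain ⟨B, hB, H⟩ := flOut_D1' H754B.signGoal H754B.omegaGoal0 hm3 Real.pi_pos uniqSeg_rnd
    (rndHomeo (m + 1)) hG hK hf hK' y₀ hBM.le (r := ρ / 2 + ρ / 2)
    (r' := Real.pi / 2 + Real.pi / 2) (by positivity) (by positivity)
  exact ⟨B, hB, fun k _ h2 hD => H k h2 (hOM k ⟨h2, hD⟩) (bne_h hm1 hKK hh y₀ h k hD)
    (trInj_G hm1 loc hρ hU h h2 hD) (trInj_h hm1 h hD)⟩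

end fin

end Vale.Agent.P216.D754
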