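import Vale.Agent.P216.Bdl.B1
import Vale.Agent.P216.H126L.Lip
import Mathlib.Analysis.Complex.Tietze
import Mathlib.Analysis.Calculus.BumpFunction.FiniteDimension
import Mathlib.Analysis.InnerProductSpace.EuclideanDist
import Mathlib.Topology.Algebra.MetricSpace.Lipschitz

/-!
# Lipschitz approximation of maps into a closed Riemannian manifold
-/

set_option maxSynthPendingDepth 3
set_option linter.unusedSectionVars false

open Set Filter Topology Metric Bundle Manifold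
open scoped NNReal ContDiff

namespace Vale.Agent.P216.D754

/-- Lipschitz near a point. -/
def LL {X Y : Type*} [PseudoMetricSpace X] [PseudoMetricSpace Y] (f : X → Y) (x : X) : Prop :=
  ∃ K : ℝ≥0, ∃ U ∈ 𝓝 x, LipschitzOnWith K f U

section LL

variable {X Y Z : Type*} [PseudoMetricSpace X] [PseudoMetricSpace Y] [PseudoMetricSpace Z]

theorem LL.continuousAt {f : X → Y} {x : X} (h : LL f x) : ContinuousAt f x := by
  obtain ⟨K, U, hU, hf⟩ := h
  exact hf.continuousOn.continuousAt hU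

theorem LL.comp {g : Y → Z} {f : X → Y} {x : X} (hg : LL g (f x)) (hf : LL f x) :
    LL (fun x => g (f x)) x := by
  have hc := hf.continuousAt
  obtain ⟨K, U, hU, hf⟩ := hf
  obtain ⟨L, V, hV, hg⟩ := hg
  exact ⟨L * K, U ∩ f ⁻¹' V, inter_mem hU (hc hV),
    hg.comp (hf.mono inter_subset_left) fun y hy => hy.2⟩

theorem LL.prodMk {f : X → Y} {g : X → Z} {x : X} (hf : LL f x) (hg : LL g x) :
    LL (fun x => (f x, g x)) x := by
  obtain ⟨K, U, hU, hf⟩ := hf
  obtain ⟨L, V, hV, hg⟩ := hg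
  exact ⟨max K L, U ∩ V, inter_mem hU hV,
    (hf.mono inter_subset_left).prodMk (hg.mono inter_subset_right)⟩

theorem LL.of_lipschitz {f : X → Y} {K : ℝ≥0} (hf : LipschitzWith K f) (x : X) : LL f x :=
  ⟨K, univ, univ_mem, hf.lipschitzOnWith⟩

theorem LL.congr {f g : X → Y} {x : X} (hf : LL f x) (h : g =ᶠ[𝓝 x] f) : LL g x := by
  obtain ⟨K, U, hU, hf⟩ := hf
  refine ⟨K, U ∩ {y | g y = f y}, inter_mem hU h, fun a ha b hb => ?_⟩
  have e1 : g a = f a := ha.2
  have e2 : g b = f b := hb.2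
  rw [e1, e2]
  exact hf ha.1 hb.1

/-- A map which is locally Lipschitz on a compact space is Lipschitz. -/
theorem exists_lipschitz_of_LL [CompactSpace X] {f : X → Y} (h : ∀ x, LL f x) :
    ∃ K : ℝ≥0, LipschitzWith K f := by
  have h1 : LocallyLipschitzOn univ f := fun x _ => by
    obtain ⟨K, U, hU, hf⟩ := h x
    exact ⟨K, U, by rwa [nhdsWithin_univ], hf⟩
  obtain ⟨K, hK⟩ := h1.exists_lipschitzOnWith_of_compact isCompact_univ
  exact ⟨K, lipschitzOnWith_univ.1 hK⟩

end LL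

/-- Vector valued continuous functions are approximated by Lipschitz functions. -/
theorem exists_lip_E {N E : Type*} [MetricSpace N] [CompactSpace N] [NormedAddCommGroup E]
    [NormedSpace ℝ E] [FiniteDimensional ℝ E] (f : C(N, E)) {ε : ℝ} (hε : 0 < ε) :
    ∃ (g : N → E) (K : ℝ≥0), LipschitzWith K g ∧ ∀ x, dist (g x) (f x) ≤ ε := by
  set e : E ≃L[ℝ] EuclideanSpace ℝ (Fin (Module.finrank ℝ E)) := toEuclidean with he
  set c : ℝ≥0 := ‖(e.symm : EuclideanSpace ℝ (Fin (Module.finrank ℝ E)) →L[ℝ] E)‖₊ with hc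
  have hl : LipschitzWith c e.symm :=
    (e.symm : EuclideanSpace ℝ (Fin (Module.finrank ℝ E)) →L[ℝ] E).lipschitz
  obtain ⟨g, K, hK, hg⟩ := H126L.exists_lip_vec
    (⟨fun x => e (f x), e.continuous.comp f.continuous⟩ :
      C(N, EuclideanSpace ℝ (Fin (Module.finrank ℝ E)))) (ε := ε / (c + 1)) (by positivity)
  refine ⟨fun x => e.symm (g x), c * K, hl.comp hK, fun x => ?_⟩
  have h1 : f x = e.symm (e (f x)) := (e.symm_apply_apply _).symm
  calc dist (e.symm (g x)) (f x) = dist (e.symm (g x)) (e.symm (e (f x))) := by rw [← h1]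
    _ ≤ c * dist (g x) (e (f x)) := hl.dist_le_mul _ _
    _ ≤ c * (ε / (c + 1)) := mul_le_mul_of_nonneg_left (hg x) c.2
    _ ≤ ε := by
        rw [mul_div_assoc', div_le_iff₀ (by positivity)]
        nlinarith [c.2, hε.le]

/-- Lipschitz coordinates near a point: `O` corresponds to `ball c ρ`. -/
structure LipCh {E M : Type*} [NormedAddCommGroup E] [NormedSpace ℝ E] [MetricSpace M] (p : M)
    (φ : M → E) (ψ : E → M) (c : E) (O : Set M) (ρ C : ℝ) : Prop where
  rpos : 0 < ρ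
  cpos : 0 < C
  isOpen : IsOpen O
  mem : p ∈ O
  phi_p : φ p = c
  cont : ContinuousOn φ O
  maps : ∀ m ∈ O, φ m ∈ ball c ρ
  left : ∀ m ∈ O, ψ (φ m) = m
  mapsi : ∀ z ∈ ball c ρ, ψ z ∈ O
  right : ∀ z ∈ ball c ρ, φ (ψ z) = z
  up : ∀ z ∈ ball c ρ, ∀ w ∈ ball c ρ, dist (ψ z) (ψ w) ≤ C * ‖z - w‖
  lo : ∀ z ∈ ball c ρ, ∀ w ∈ ball c ρ, ‖z - w‖ ≤ C * dist (ψ z) (ψ w)

namespace LipCh

variable {E M : Type*} [NormedAddCommGroup E] [NormedSpace ℝ E] [FiniteDimensional ℝ E]
  [MetricSpace M] {p : M} {φ : M → E} {ψ : E → M} {c : E} {O : Set M} {ρ C : ℝ}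

theorem ll_phi (h : LipCh p φ ψ c O ρ C) {m : M} (hm : m ∈ O) : LL φ m := by
  refine ⟨⟨C, h.cpos.le⟩, O, h.isOpen.mem_nhds hm, LipschitzOnWith.of_dist_le_mul ?_⟩
  intro a ha b hb
  have h1 := h.lo _ (h.maps a ha) _ (h.maps b hb)
  rw [h.left a ha, h.left b hb] at h1
  rw [dist_eq_norm]
  exact h1

theorem ll_psi (h : LipCh p φ ψ c O ρ C) {z : E} (hz : z ∈ ball c ρ) : LL ψ z := by
  refine ⟨⟨C, h.cpos.le⟩, ball c ρ, isOpen_ball.mem_nhds hz, LipschitzOnWith.of_dist_le_mul ?_⟩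
  intro a ha b hb
  rw [dist_eq_norm a b]
  exact h.up a ha b hb

/-- **One step of the approximation.** -/
theorem step (h : LipCh p φ ψ c O ρ C) : ∃ δ : ℝ, 0 < δ ∧ ∀ (N : Type) [MetricSpace N]
    [CompactSpace N] (g : C(N, M)) (ε : ℝ), 0 < ε → ∃ g' : C(N, M),
      (∀ x, dist (g' x) (g x) ≤ ε) ∧ (∀ x, dist (g x) p < δ → LL g' x) ∧
      ∀ x, LL g x → LL g' x := by
  classical
  have hρ := h.rpos
  have hC := h.cpos
  obtain ⟨b⟩ : Nonempty {b : ContDiffBump c // b.rIn = ρ / 4 ∧ b.rOut = ρ / 2} :=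
    ⟨⟨⟨ρ / 4, ρ / 2, by linarith, by linarith⟩, rfl, rfl⟩⟩
  obtain ⟨b, hbi, hbo⟩ := b
  -- the small ball
  have hcp : ContinuousAt φ p := h.cont.continuousAt (h.isOpen.mem_nhds h.mem)
  have h1 : ∀ᶠ m in 𝓝 p, m ∈ O ∧ φ m ∈ ball c (ρ / 4) :=
    Filter.Eventually.and (h.isOpen.mem_nhds h.mem) (hcp (isOpen_ball.mem_nhds (by
      rw [h.phi_p]; exact mem_ball_self (by linarith))))
  obtain ⟨δ, hδ, hδ'⟩ := Metric.eventually_nhds_iff.1 h1
  refine ⟨δ, hδ, fun N _ _ g ε hε => ?_⟩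
  -- the compact core
  set Kc : Set M := ψ '' closedBall c (ρ / 2) with hKc
  have hsub : closedBall c (ρ / 2) ⊆ ball c ρ := closedBall_subset_ball (by linarith)
  have hψc : ContinuousOn ψ (ball c ρ) := fun z hz => (h.ll_psi hz).continuousAt.continuousWithinAt
  have hKcl : IsClosed Kc := ((isCompact_closedBall c (ρ / 2)).image_of_continuousOn
    (hψc.mono hsub)).isClosed
  have hKO : Kc ⊆ O := by
    rintro _ ⟨z, hz, rfl⟩
    exact h.mapsi z (hsub hz)
  have hKiff : ∀ m ∈ O, m ∉ Kc → ρ / 2 ≤ dist (φ m) c := by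
    intro m hm hmK
    by_contra hlt
    exact hmK ⟨φ m, (not_le.1 hlt).le, h.left m hm⟩
  set S : Set N := g ⁻¹' Kc with hS
  have hScl : IsClosed S := hKcl.preimage g.continuous
  have hf0 : ContinuousOn (fun x => φ (g x)) S := by
    intro x hx
    have : ContinuousAt φ (g x) := h.cont.continuousAt (h.isOpen.mem_nhds (hKO hx))
    exact (ContinuousAt.comp this g.continuous.continuousAt).continuousWithinAt
  obtain ⟨F, hF⟩ := ContinuousMap.exists_restrict_eq hScl
    (⟨fun x : S => φ (g x), continuousOn_iff_continuous_domRestrict.1 hf0⟩ : C(S, E))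
  have hF' : ∀ x ∈ S, F x = φ (g x) := fun x hx =>
    congrArg (fun q : C(S, E) => q ⟨x, hx⟩) hF
  set η : ℝ := min (ρ / 4) (ε / C) with hη
  have hη0 : 0 < η := by positivity
  obtain ⟨L, KL, hL, hLF⟩ := exists_lip_E F hη0
  have hLφ : ∀ x ∈ S, ‖L x - φ (g x)‖ ≤ η := fun x hx => by
    have := hLF x
    rwa [hF' x hx, dist_eq_norm] at this
  -- the interpolation
  set Θ : E × E → E := fun q => q.1 + b q.1 • (q.2 - q.1) with hΘ
  have hΘc : ContDiff ℝ 1 Θ := by
    have hb : ContDiff ℝ 1 (b : E → ℝ) := b.contDiff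
    exact contDiff_fst.add ((hb.comp contDiff_fst).smul (contDiff_snd.sub contDiff_fst))
  have hΘl : ∀ q, LL Θ q := fun q => by
    obtain ⟨K, t, ht, hK⟩ := hΘc.contDiffAt.exists_lipschitzOnWith (x := q)
    exact ⟨K, t, ht, hK⟩
  have hΘ1 : ∀ a w, a ∈ closedBall c (ρ / 4) → Θ (a, w) = w := fun a w ha => by
    simp only [hΘ]
    rw [b.one_of_mem_closedBall (by rwa [hbi]), one_smul]
    abel
  have hΘ0 : ∀ a w, ρ / 2 ≤ dist a c → Θ (a, w) = a := fun a w ha => by
    simp only [hΘ]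
    rw [b.zero_of_le_dist (by rwa [hbo]), zero_smul, add_zero]
  have hΘd : ∀ a w, ‖Θ (a, w) - a‖ ≤ ‖w - a‖ := fun a w => by
    simp only [hΘ, add_sub_cancel_left]
    rw [norm_smul, Real.norm_of_nonneg b.nonneg]
    exact mul_le_of_le_one_left (norm_nonneg _) b.le_one
  -- the point of the ball
  set P : N → E := fun x => Θ (φ (g x), L x) with hP
  have hPb : ∀ x, g x ∈ O → P x ∈ ball c ρ ∧ ‖P x - φ (g x)‖ ≤ η := by
    intro x hx
    by_cases hxK : g x ∈ Kc
    · have h2 : ‖P x - φ (g x)‖ ≤ η := (hΘd _ _).trans (hLφ x hxK)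
      refine ⟨?_, h2⟩
      obtain ⟨z, hz, hzx⟩ := hxK
      have h3 : dist (φ (g x)) c ≤ ρ / 2 := by
        rw [← hzx, h.right z (hsub hz)]
        exact hz
      have h4 : dist (P x) (φ (g x)) ≤ ρ / 4 := by
        rw [dist_eq_norm]
        exact h2.trans (min_le_left _ _)
      rw [mem_ball]
      linarith [dist_triangle (P x) (φ (g x)) c]
    · have h2 : P x = φ (g x) := hΘ0 _ _ (hKiff _ hx hxK)
      rw [h2]
      exact ⟨h.maps _ hx, by simpa using hη0.le⟩
  set G : N → M := fun x => if g x ∈ O then ψ (P x) else g x with hG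
  have hGO : ∀ x, g x ∈ O → G x = ψ (P x) := fun x hx => if_pos hx
  have hGK : ∀ x, g x ∉ Kc → G x = g x := by
    intro x hx
    by_cases hxO : g x ∈ O
    · rw [hGO x hxO]
      have h2 : P x = φ (g x) := hΘ0 _ _ (hKiff _ hxO hx)
      rw [h2, h.left _ hxO]
    · exact if_neg hxO
  have hnO : ∀ x, g x ∈ O → ∀ᶠ y in 𝓝 x, g y ∈ O := fun x hx =>
    g.continuous.continuousAt (h.isOpen.mem_nhds hx)
  have hnK : ∀ x, g x ∉ Kc → ∀ᶠ y in 𝓝 x, g y ∉ Kc := fun x hx =>
    g.continuous.continuousAt (hKcl.isOpen_compl.mem_nhds hx)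
  have hcont : Continuous G := by
    rw [continuous_iff_continuousAt]
    intro x
    by_cases hx : g x ∈ O
    · have h2 : ContinuousAt P x := by
        have h3 : ContinuousAt (fun x => φ (g x)) x :=
          ContinuousAt.comp (h.cont.continuousAt (h.isOpen.mem_nhds hx)) g.continuous.continuousAt
        exact ContinuousAt.comp (f := fun x => (φ (g x), L x)) hΘc.continuous.continuousAt
          (h3.prodMk hL.continuous.continuousAt)
      have h3 : ContinuousAt (fun x => ψ (P x)) x :=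
        ContinuousAt.comp (h.ll_psi (hPb x hx).1).continuousAt h2
      exact h3.congr ((hnO x hx).mono fun y hy => (hGO y hy).symm)
    · have hxK : g x ∉ Kc := fun hk => hx (hKO hk)
      exact g.continuous.continuousAt.congr ((hnK x hxK).mono fun y hy => (hGK y hy).symm)
  refine ⟨⟨G, hcont⟩, fun x => ?_, fun x hx => ?_, fun x hx => ?_⟩
  · show dist (G x) (g x) ≤ ε
    by_cases hxO : g x ∈ O
    · rw [hGO x hxO]
      conv_lhs => rw [← h.left _ hxO]
      refine (h.up _ (hPb x hxO).1 _ (h.maps _ hxO)).trans ?_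
      have h2 := (hPb x hxO).2.trans (min_le_right (ρ / 4) (ε / C))
      rw [le_div_iff₀ hC] at h2
      linarith
    · have hxK : g x ∉ Kc := fun hk => hxO (hKO hk)
      rw [hGK x hxK, dist_self]
      exact hε.le
  · show LL G x
    obtain ⟨hxO, hxb⟩ := hδ' hx
    have hev : ∀ᶠ y in 𝓝 x, g y ∈ O ∧ φ (g y) ∈ ball c (ρ / 4) := by
      have h3 : ContinuousAt (fun x => φ (g x)) x :=
        ContinuousAt.comp (h.cont.continuousAt (h.isOpen.mem_nhds hxO)) g.continuous.continuousAt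
      exact Filter.Eventually.and (hnO x hxO) (h3 (isOpen_ball.mem_nhds hxb))
    have hLx : L x ∈ ball c ρ := by
      have h2 := (hPb x hxO).1
      rwa [show P x = L x from hΘ1 _ _ (ball_subset_closedBall hxb)] at h2
    have h2 : LL (fun x => ψ (L x)) x := LL.comp (h.ll_psi hLx) (LL.of_lipschitz hL x)
    refine h2.congr (hev.mono fun y hy => ?_)
    show G y = ψ (L y)
    rw [hGO y hy.1, show P y = L y from hΘ1 _ _ (ball_subset_closedBall hy.2)]
  · show LL G x
    by_cases hxO : g x ∈ O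
    · have h2 : LL (fun x => φ (g x)) x := LL.comp (h.ll_phi hxO) hx
      have h3 : LL P x := LL.comp (f := fun x => (φ (g x), L x)) (hΘl _)
        (h2.prodMk (LL.of_lipschitz hL x))
      have h4 : LL (fun x => ψ (P x)) x := LL.comp (h.ll_psi (hPb x hxO).1) h3
      exact h4.congr ((hnO x hxO).mono fun y hy => hGO y hy)
    · have hxK : g x ∉ Kc := fun hk => hxO (hKO hk)
      exact hx.congr ((hnK x hxK).mono fun y hy => hGK y hy)

end LipCh

/-- Existence of Lipschitz coordinates at every point. -/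
def HasLipCh (E M : Type*) [NormedAddCommGroup E] [NormedSpace ℝ E] [MetricSpace M] : Prop :=
  ∀ p : M, ∃ (φ : M → E) (ψ : E → M) (c : E) (O : Set M) (ρ C : ℝ), LipCh p φ ψ c O ρ C

section Global

variable {E M : Type*} [NormedAddCommGroup E] [NormedSpace ℝ E] [FiniteDimensional ℝ E]
  [MetricSpace M] [CompactSpace M]

theorem exists_lip_of_hasLipCh (H : HasLipCh E M) {N : Type} [MetricSpace N] [CompactSpace N]
    (g : C(N, M)) {ε : ℝ} (hε : 0 < ε) : ∃ (g' : C(N, M)) (K : ℝ≥0), LipschitzWith K g' ∧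
      ∀ x, dist (g' x) (g x) ≤ ε := by
  classical
  have h1 : ∀ p : M, ∃ δ : ℝ, 0 < δ ∧ ∀ (N : Type) [MetricSpace N] [CompactSpace N]
      (g : C(N, M)) (ε : ℝ), 0 < ε → ∃ g' : C(N, M), (∀ x, dist (g' x) (g x) ≤ ε) ∧
      (∀ x, dist (g x) p < δ → LL g' x) ∧ ∀ x, LL g x → LL g' x := fun p => by
    obtain ⟨φ, ψ, c, O, ρ, C, h⟩ := H p
    exact h.step
  choose δ hδ hstep using h1
  obtain ⟨t, ht⟩ := CompactSpace.elim_nhds_subcover (fun p => ball p (δ p / 2))
    fun p => ball_mem_nhds p (half_pos (hδ p))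
  have key : ∀ s : Finset M, ∀ ε : ℝ, 0 < ε → ∃ g' : C(N, M), (∀ x, dist (g' x) (g x) ≤ ε) ∧
      ∀ x, (∃ p ∈ s, g x ∈ ball p (δ p / 2)) → LL g' x := by
    intro s
    induction s using Finset.induction_on with
    | empty => exact fun ε hε => ⟨g, fun x => by rw [dist_self]; exact hε.le,
        fun x ⟨p, hp, _⟩ => absurd hp (Finset.notMem_empty p)⟩
    | insert a s ha ih =>
      intro ε hε
      obtain ⟨g₁, h₁, h₂⟩ := ih (min (ε / 2) (δ a / 4)) (lt_min (half_pos hε) (by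
        have := hδ a
        positivity))
      obtain ⟨g₂, h₃, h₄, h₅⟩ := hstep a N g₁ (ε / 2) (half_pos hε)
      refine ⟨g₂, fun x => ?_, fun x ⟨p, hp, hx⟩ => ?_⟩
      · have := (h₁ x).trans (min_le_left _ _)
        linarith [dist_triangle (g₂ x) (g₁ x) (g x), h₃ x]
      · rcases Finset.mem_insert.1 hp with rfl | hp
        · refine h₄ x ?_
          have h6 := (h₁ x).trans (min_le_right _ _)
          have h7 : dist (g x) p < δ p / 2 := hx
          linarith [dist_triangle (g₁ x) (g x) p, hδ p]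
        · exact h₅ x (h₂ x ⟨p, hp, hx⟩)
  obtain ⟨g', h₁, h₂⟩ := key t ε hε
  have h₃ : ∀ x, LL g' x := fun x => by
    have : g x ∈ (⋃ p ∈ t, ball p (δ p / 2)) := by rw [ht]; exact mem_univ _
    obtain ⟨p, hp, hx⟩ := mem_iUnion₂.1 this
    exact h₂ x ⟨p, hp, hx⟩
  obtain ⟨K, hK⟩ := exists_lipschitz_of_LL h₃
  exact ⟨g', K, hK, h₁⟩

end Global

end Vale.Agent.P216.D754
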