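import Vale.Agent.P216.D754.LipM
import Vale.Agent.P216.LS.Seg
import Mathlib.Topology.Homotopy.Basic

/-!
# Lipschitz approximation of maps into a closed Riemannian manifold: the Riemannian case
-/

set_option maxSynthPendingDepth 3
set_option linter.unusedSectionVars false

open Set Filter Topology Metric Bundle Manifold
open scoped NNReal ContDiff

namespace Vale.Agent.P216.D754

section Riem

variable {E : Type*} [NormedAddCommGroup E] [NormedSpace ℝ E] [FiniteDimensional ℝ E]
  {M : Type*} [MetricSpace M] [ChartedSpace E M] [IsManifold 𝓘(ℝ, E) ∞ M]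
  [RiemannianBundle (fun (x : M) ↦ TangentSpace 𝓘(ℝ, E) x)]
  [IsContMDiffRiemannianBundle 𝓘(ℝ, E) ∞ E (fun (x : M) ↦ TangentSpace 𝓘(ℝ, E) x)]
  [IsRiemannianManifold 𝓘(ℝ, E) M]

variable (E M) in
/-- The charts of a Riemannian manifold are locally bi-Lipschitz. -/
theorem hasLipCh : HasLipCh E M := by
  intro p
  have hs : p ∈ (extChartAt 𝓘(ℝ, E) p).source := mem_extChartAt_source p
  obtain ⟨ρ, C, h⟩ := (Chart.localMetric (E := E) p).exists_goodBall
    (y := Chart.phi p p) (Chart.phi_mem_dom p hs)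
  have hO : IsOpen ((extChartAt 𝓘(ℝ, E) p).source ∩
      Chart.phi (E := E) p ⁻¹' ball (Chart.phi p p) ρ) :=
    (continuousOn_extChartAt p).isOpen_inter_preimage (isOpen_extChartAt_source p) isOpen_ball
  refine ⟨Chart.phi (E := E) p, Chart.psi p, Chart.phi (E := E) p p, _, ρ, C, h.rpos, h.cpos,
    hO, ⟨hs, mem_ball_self h.rpos⟩, rfl, (continuousOn_extChartAt p).mono inter_subset_left,
    fun m hm => hm.2, fun m hm => Chart.psi_phi p hm.1, fun z hz => ?_, fun z hz => ?_, ?_, ?_⟩
  · refine ⟨Chart.mem_source_psi p (h.sub hz), ?_⟩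
    rw [mem_preimage, Chart.phi_psi p (h.sub hz)]
    exact hz
  · exact Chart.phi_psi p (h.sub hz)
  · exact fun z hz w hw => h.up z hz w hw
  · exact fun z hz w hw => h.lo z hz w hw

include E in
/-- **Lipschitz approximation of maps into a closed Riemannian manifold.** -/
theorem exists_lipM [CompactSpace M] {N : Type} [MetricSpace N] [CompactSpace N]
    (g : C(N, M)) {ε : ℝ} (hε : 0 < ε) : ∃ (g' : C(N, M)) (K : ℝ), 0 < K ∧
      (∀ x y, dist (g' x) (g' y) ≤ K * dist x y) ∧ ∀ x, dist (g' x) (g x) ≤ ε := by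
  obtain ⟨g', K, hK, h⟩ := exists_lip_of_hasLipCh (hasLipCh E M) g hε
  refine ⟨g', K + 1, by positivity, fun x y => (hK.dist_le_mul x y).trans ?_, h⟩
  nlinarith [dist_nonneg (x := x) (y := y)]

end Riem

/-- Close maps are homotopic. -/
theorem homotopic_of_dist_lt {M : Type*} [MetricSpace M] [CompactSpace M] {ρ : ℝ}
    (hU : LS.UniqSeg M ρ) {N : Type*} [TopologicalSpace N] {f g : C(N, M)}
    (h : ∀ x, dist (f x) (g x) < ρ) : f.Homotopic g := by
  have hc : Continuous fun q : unitInterval × N => LS.seg (f q.2) (g q.2) (q.1 : ℝ) := by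
    rw [← continuousOn_univ]
    exact LS.ContinuousOn.seg hU (f.continuous.comp continuous_snd).continuousOn
      (g.continuous.comp continuous_snd).continuousOn
      (continuous_subtype_val.comp continuous_fst).continuousOn (fun a _ => h a.2)
      fun a _ => a.1.2
  refine ⟨⟨⟨_, hc⟩, fun x => ?_, fun x => ?_⟩⟩
  · exact LS.seg_zero _ _
  · exact LS.seg_one _ _

end Vale.Agent.P216.D754
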