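import Vale.Agent.P216.D754.Goals2
import Vale.Agent.P216.H901D.Asm
import Vale.Agent.P216.Q633.EndL
import Vale.Agent.P216.H539.StMoore
import Vale.Agent.P216.MV337.ToX

/-!
# P216-D, D1: from the Moore loops to the energy sublevels, with the classes from the model

`limF I z`: the compatible family on `XL N s` of a compatible family `z` on `FL N t`.
`hpull_lf_ne`: if `(Λf)^* z ≠ 0` on `FL M t`, then the pull back of `limF I z` is not zero on `XL M`.
-/

set_option linter.unusedVariables false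
set_option linter.unusedSectionVars false

open Set BoundedContinuousFunction

namespace Vale.Agent.P216.D754

open Vale.Agent.P216.AS Vale.Agent.P216.GM Vale.Agent.P216.PS Vale.Agent.P216.MV337
open Vale.Agent.P216.B64 Vale.Agent.P216.H754B
open Vale.Agent.P216.H901 (SpIntl Hp PM PMa)
open Vale.Agent.P216.L250 (XE LM fn XE_mono ext_fn fn_periodic)
open Vale.Agent.P216.Q633 (THU lf umap_lf fn_lf)
open Vale.Agent.P216.D337 (LipC gm gm_apply map_gm_FL)
open Vale.Agent.P216.H901D (famMap flPM)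

section Fam

variable {M : Type} [MetricSpace M] [CompactSpace M]
  (I : SpIntl (fun t => XE M t) (fun _ => ∅) (fun t => FL M t) (fun _ => ∅) 1)
  {k : Type} [Field k] {q : ℕ} {X : Set (LM M)} {s t u u' : ℝ} (z : (XP k M q).Fam)

/-- the class at level `t` -/
def zz (z : (XP k M q).Fam) (t : ℝ) (ht : 0 < t) : HU k (FL M t) q := z.z t ht

theorem fam_res (hs : 0 < s) (ht : 0 < t) (h : s ≤ t) (hh : FL M s ⊆ FL M t) :
    hres k hh q (zz z t ht) = zz z s hs := z.comp s t hs h

theorem hpull_F (ht : 0 < t) (hX : X ⊆ XE M t) (hu : t + 1 ≤ u) {t' : ℝ} (ht' : 0 < t')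
    (hX' : X ⊆ XE M t') (hu' : t' + 1 ≤ u') (h0 : 0 < u) (h0' : 0 < u')
    (h1 : UMap X (FL M u) (I.f t)) (h2 : UMap X (FL M u') (I.f t')) :
    hpull k h1 q (zz z u h0) = hpull k h2 q (zz z u' h0') := by
  have key : ∀ {t t' u u' : ℝ} (h0 : 0 < u) (h0' : 0 < u'), 0 < t → X ⊆ XE M t → t + 1 ≤ u →
      X ⊆ XE M t' → t' + 1 ≤ u' →
      t ≤ t' → ∀ (h1 : UMap X (FL M u) (I.f t)) (h2 : UMap X (FL M u') (I.f t')),
      hpull k h1 q (zz z u h0) = hpull k h2 q (zz z u' h0') := by
    intro t t' u u' h0 h0' ht hX hu hX' hu' htt h1 h2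
    have hm : 0 < max u u' := lt_max_of_lt_left h0
    have e1 := fam_res z h0 hm (le_max_left _ _) (FL_mono (le_max_left _ _))
    have e2 := fam_res z h0' hm (le_max_right _ _) (FL_mono (le_max_right _ _))
    rw [← e1, ← e2, hpull_hres h1 (FL_mono (le_max_left _ _))
      (umf I ht hX (hu.trans (le_max_left _ _))),
      hpull_hres h2 (FL_mono (le_max_right _ _))
        (umf I (ht.trans_le htt) hX' (hu'.trans (le_max_right _ _)))]
    exact hpull_f I ht htt hX (hu'.trans (le_max_right _ _)) _ _ _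
  rcases le_total t t' with h | h
  · exact key h0 h0' ht hX hu hX' hu' h h1 h2
  · exact (key h0' h0 ht' hX' hu' hX hu h h2 h1).symm

/-- The class on `XL M s` of a family on `FL M t`. -/
noncomputable def gXF (s : ℝ) : HU k (XL M s) q :=
  hpull k (umf I (t := max s 0 + 1) (by positivity) (XL_subset (by linarith)) le_rfl) q
    (zz z (max s 0 + 1 + 1) (by positivity))

theorem gXF_eq (ht : 0 < t) (hX : XL M s ⊆ XE M t) (hu : t + 1 ≤ u) (h0 : 0 < u)
    (h : UMap (XL M s) (FL M u) (I.f t)) : gXF I z s = hpull k h q (zz z u h0) :=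
  hpull_F I z (by positivity) (XL_subset (by linarith)) le_rfl ht hX hu _ _ _ _

theorem gXF_res (h : s ≤ t) : hres k (XL_mono h) q (gXF I z t) = gXF I z s := by
  have hX : XL M s ⊆ XE M (max t 0 + 1) := (XL_mono h).trans (XL_subset (by linarith))
  rw [gXF, hres_hpull _ _ (umf I (by positivity) hX le_rfl)]
  exact (gXF_eq I z (by positivity) hX le_rfl _ _).symm

/-- The compatible family on the energy sublevels. -/
noncomputable def limF : (THU M k q).Lim := ⟨fun s => gXF I z s, fun s t h => gXF_res I z h⟩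

/-- The pull back by `I.g t`. -/
theorem hpull_g_gXF (ht : 0 < t) (hs : t + 1 ≤ s) (h : UMap (FL M t) (XL M s) (I.g t)) :
    hpull k h q (gXF I z s) = zz z t ht := by
  have hs0 : max (t + 1) 0 = t + 1 := max_eq_left (by linarith)
  have hsub : XE M (t + 1) ⊆ XL M s := by
    have := XL_mono (M := M) hs
    refine Subset.trans ?_ this
    rw [XL_eq (by linarith)]
  have h' : UMap (FL M t) (XE M (t + 1)) (I.g t) := umg I ht le_rfl le_rfl
  rw [← hpull_hres h' hsub h]
  have hX : XE M (t + 1) ⊆ XE M (max s 0 + 1) := hsub.trans (XL_subset (by linarith))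
  have e1 : hres k hsub q (gXF I z s) = hpull k (umf I (t := t + 1) (by linarith) le_rfl le_rfl) q
      (zz z (t + 1 + 1) (by linarith)) := by
    rw [gXF, hres_hpull _ _ (umf I (by positivity) hX le_rfl)]
    exact hpull_F I z (by positivity) hX le_rfl (by linarith) le_rfl le_rfl _ _ _ _
  rw [e1, hpull_gf I ht h' _ le_rfl]
  exact fam_res z ht _ (by linarith) _

end Fam

section Two

variable {M N : Type} [MetricSpace M] [CompactSpace M] [MetricSpace N] [CompactSpace N]
  (IM : SpIntl (fun t => XE M t) (fun _ => ∅) (fun t => FL M t) (fun _ => ∅) 1)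
  (hIM : ∀ t, 0 < t → ∀ w ∈ FL M t, ∀ s ∈ Icc (0:ℝ) 1, fn (IM.g t w) s = w (t * s))
  (IN : SpIntl (fun t => XE N t) (fun _ => ∅) (fun t => FL N t) (fun _ => ∅) 1)
  (hIN : ∀ t, 0 < t → ∀ w ∈ FL N t, ∀ s ∈ Icc (0:ℝ) 1, fn (IN.g t w) s = w (t * s))
  {f : C(M, N)} {K : ℝ}

include hIM hIN in
theorem eqOn_lf (hf : LipC f K) (hK : 0 < K) {t : ℝ} (ht : 0 < t) :
    EqOn (lf f ∘ IM.g t) (IN.g (K * t) ∘ fun w : ℝ →ᵇ M => gm f K w) (FL M t) := by
  intro w hw
  refine ext_fn fun x => ?_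
  show fn (lf f (IM.g t w)) x = fn (IN.g (K * t) (gm f K w)) x
  rw [fn_lf]
  have per : ∀ {N : Type} [MetricSpace N] [CompactSpace N] (v : LM N),
      fn v x = fn v (Int.fract x) := by
    intro N _ _ v
    have := (fn_periodic v).sub_int_mul_eq ⌊x⌋ (x := x)
    rw [mul_one] at this
    exact this.symm
  have hx : Int.fract x ∈ Icc (0:ℝ) 1 := ⟨Int.fract_nonneg x, (Int.fract_lt_one x).le⟩
  rw [per, per (IN.g (K * t) (gm f K w)), hIM t ht w hw _ hx,
    hIN (K * t) (mul_pos hK ht) _ ((map_gm_FL hf hK t).mapsX hw) _ hx, gm_apply hf hK hw.1]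
  congr 2
  field_simp

variable {k : Type} [Field k] {q : ℕ}

include hIM hIN in
/-- **The classes from the model do not die on the energy sublevels.** -/
theorem hpull_lf_ne (hf : LipC f K) (hK : 0 < K) (z : (XP k N q).Fam) {t : ℝ} (ht : 0 < t)
    (hz : ((famMap (flPM k hf hK q)).φ z).z t ht ≠ 0) :
    ∃ (t s : ℝ) (h : K * t ≤ s) (y : (THU N k q).Lim),
      hpull k (umap_lf hK.le hf h) q ((THU N k q).ev s y) ≠ 0 := by
  refine ⟨t + 1, K * t + K + 1, by nlinarith, limF IN z, fun h0 => hz ?_⟩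
  have hKt : 0 < K * t := mul_pos hK ht
  have g1 : UMap (FL M t) (XL M (t + 1)) (IM.g t) :=
    umg IM ht le_rfl (by rw [XL_eq (by linarith)])
  have g2 : UMap (FL N (K * t)) (XL N (K * t + K + 1)) (IN.g (K * t)) :=
    umg IN hKt le_rfl (by rw [XL_eq (by linarith)]; exact XE_mono (by linarith) (by linarith))
  have l1 : UMap (XL M (t + 1)) (XL N (K * t + K + 1)) (lf f) :=
    umap_lf hK.le hf (by nlinarith)
  have m1 : UMap (FL M t) (FL N (K * t)) (fun w : ℝ →ᵇ M => gm f K w) := map_gm_FL hf hK t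
  have e1 : hpull k g1 q (hpull k l1 q (gXF IN z (K * t + K + 1))) = 0 := by
    have : hpull k l1 q (gXF IN z (K * t + K + 1)) = 0 := h0
    rw [this, map_zero]
  rw [hpull_hpull l1 g1 (l1.comp g1),
    hpull_congr (l1.comp g1) (g2.comp m1) (eqOn_lf IM hIM IN hIN hf hK ht),
    ← hpull_hpull g2 m1, hpull_g_gXF IN z hKt (by linarith) g2] at e1
  exact e1

end Two

/-- `XPre` from `FLOut`. -/
theorem nonempty_xPre {M : Type} [MetricSpace M] [CompactSpace M] {k : Type} [Field k] {n : ℕ}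
    {B : ℝ} (hB : 0 < B)
    (I : SpIntl (fun t => XE M t) (fun _ => ∅) (fun t => FL M t) (fun _ => ∅) 1)
    (hI : ∀ t, 0 < t → ∀ w ∈ FL M t, ∀ s ∈ Icc (0:ℝ) 1, fn (I.g t w) s = w (t * s))
    (F : FLOut M n B k) : Nonempty (Q633.XPre M n (B + 3) k) :=
  let X := MV337.xOut I F hB hI
  ⟨⟨X.g, X.res_g, X.span, X.g_zero, X.birth0, X.birth⟩⟩

end Vale.Agent.P216.D754
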