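import Vale.Agent.P216.D754.Fin
import Vale.Agent.P216.D754.ToXF

/-!
# P216-D, D1: the goal `D1Goal` for a closed simply connected manifold with maps of non-zero degree
-/

set_option linter.unusedVariables false
set_option linter.unusedSectionVars false

open Set BoundedContinuousFunction

namespace Vale.Agent.P216.D754

open Vale.Agent.P216.B64 (Deg)
open Vale.Agent.P216.D337 (LipC)
open Vale.Agent.P216.D246 (LocEuc)
open Vale.Agent.P216.Q633 (Rnd D1Goal uniqSeg_rnd)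
open Vale.Agent.P216.D311 (powR)

/-- **D1**: `D1Goal` of a closed simply connected `(m + 1)`-manifold with Lipschitz maps
`f : M → S`, `G : S → M`, `f ∘ G` of degree `D ≠ 0`. -/
theorem d1Goal {M : Type} [MetricSpace M] [CompactSpace M] [SimplyConnectedSpace M] {m : ℕ}
    (hm3 : 3 ≤ m) (loc : LocEuc M (m + 1)) {f : C(M, Rnd (m + 1))} {G : C(Rnd (m + 1), M)}
    {K K' : ℝ} (hK : 0 < K) (hK' : 0 < K') (hG : LipC G K) (hf : LipC f K') {D : ℤ} (hD : D ≠ 0)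
    (h : (f.comp G).Homotopic (powR m D)) : D1Goal M (m + 1) fun p => |D| < p := by
  intro ρ hρ hU
  obtain ⟨B, hB, H⟩ := flOut_fin hm3 loc hρ hU hK hK' hG hf h
  obtain ⟨IM, hIM⟩ := MR.stMoore M ρ hρ hU 1 one_pos
  obtain ⟨IN, hIN⟩ := MR.stMoore (Rnd (m + 1)) Real.pi Real.pi_pos uniqSeg_rnd 1 one_pos
  refine ⟨f, K', hK'.le, hf, B + 3, by linarith, fun p hp h2 hDp => ?_⟩
  have hD' : (D : ZMod p) ≠ 0 := fun h0 => hD (Int.eq_zero_of_abs_lt_dvd
    ((ZMod.intCast_zmod_eq_zero_iff_dvd D p).1 h0) hDp)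
  obtain ⟨⟨F⟩, hne⟩ := H (ZMod p) (GSys.two_ne_zero' h2) hD'
  refine ⟨nonempty_xPre hB IM hIM F, fun i => ?_⟩
  obtain ⟨z, t, ht, hz⟩ := hne (B64.kk (m + 1) i * (m + 1 - 1)) (Or.inr ⟨i, Or.inl rfl⟩)
  exact hpull_lf_ne IM hIM IN hIN hf hK' z ht hz

end Vale.Agent.P216.D754
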